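import Mathlib

/-!
Row 91: elementary facts about `c₀(ℕ; E)`.
-/

set_option autoImplicit false
open Filter Topology

namespace Crest.Agent.R91

abbrev C0 (E : Type*) [NormedAddCommGroup E] := ZeroAtInftyContinuousMap ℕ E

variable {E : Type*} [NormedAddCommGroup E]

lemma c0_apply_le (f : C0 E) (n : ℕ) : ‖f n‖ ≤ ‖f‖ := by
  rw [← ZeroAtInftyContinuousMap.norm_toBCF_eq_norm]
  exact f.toBCF.norm_coe_le_norm n

lemma c0_norm_le {f : C0 E} {C : ℝ} (hC : 0 ≤ C) (h : ∀ n, ‖f n‖ ≤ C) : ‖f‖ ≤ C := by
  rw [← ZeroAtInftyContinuousMap.norm_toBCF_eq_norm]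
  exact (BoundedContinuousFunction.norm_le hC).2 h

lemma c0_tendsto (f : C0 E) : Tendsto f atTop (𝓝 0) := by
  have := f.zero_at_infty'
  rwa [cocompact_eq_cofinite, Nat.cofinite_eq_atTop] at this

/-- an element of `c₀` from a null sequence -/
def c0mk (f : ℕ → E) (h : Tendsto f atTop (𝓝 0)) : C0 E :=
  ⟨⟨f, continuous_of_discreteTopology⟩, by rwa [cocompact_eq_cofinite, Nat.cofinite_eq_atTop]⟩

@[simp] lemma c0mk_apply (f : ℕ → E) (h : Tendsto f atTop (𝓝 0)) (n : ℕ) : c0mk f h n = f n := rfl

/-- the sequence with the single entry `v` at place `n` -/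
def c0single (n : ℕ) (v : E) : C0 E :=
  c0mk (fun k => if k = n then v else 0) (by
    refine tendsto_const_nhds.congr' ?_
    filter_upwards [eventually_gt_atTop n] with k hk
    rw [if_neg hk.ne'])

lemma c0single_apply (n : ℕ) (v : E) (k : ℕ) : c0single n v k = if k = n then v else 0 := rfl

lemma c0_sum_apply {ι : Type*} (s : Finset ι) (f : ι → C0 E) (k : ℕ) :
    (∑ i ∈ s, f i) k = ∑ i ∈ s, f i k := by
  classical
  induction s using Finset.induction_on with
  | empty => simp
  | insert a s ha ih => simp [Finset.sum_insert ha, ih]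

lemma isometry_c0single (n : ℕ) : Isometry (c0single n : E → C0 E) := by
  refine Isometry.of_dist_eq fun a b => ?_
  simp only [dist_eq_norm]
  refine le_antisymm (c0_norm_le (norm_nonneg _) fun k => ?_) ?_
  · simp only [ZeroAtInftyContinuousMap.sub_apply, c0single_apply]
    split_ifs <;> simp
  · simpa [c0single_apply] using c0_apply_le (c0single n a - c0single n b) n

lemma c0_trunc_tendsto (f : C0 E) :
    Tendsto (fun N => ∑ n ∈ Finset.range N, c0single n (f n)) atTop (𝓝 f) := by
  rw [Metric.tendsto_atTop]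
  intro ε hε
  obtain ⟨N, hN⟩ := Metric.tendsto_atTop.1 (c0_tendsto f) (ε / 2) (by linarith)
  refine ⟨N, fun M hM => ?_⟩
  rw [dist_eq_norm]
  refine lt_of_le_of_lt (c0_norm_le (C := ε / 2) (by linarith) fun k => ?_) (by linarith)
  simp only [ZeroAtInftyContinuousMap.sub_apply, c0_sum_apply, c0single_apply]
  rw [Finset.sum_ite_eq]
  split_ifs with h
  · simp; linarith
  · have := hN k (by simp at h; omega)
    simp only [dist_zero_right] at this
    simpa using this.le

lemma separable_c0 [NormedSpace ℝ E] [TopologicalSpace.SeparableSpace E] :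
    TopologicalSpace.SeparableSpace (C0 E) := by
  rw [← TopologicalSpace.isSeparable_univ_iff]
  have h1 : TopologicalSpace.IsSeparable (⋃ n, Set.range (c0single n : E → C0 E)) :=
    TopologicalSpace.IsSeparable.iUnion fun n =>
      TopologicalSpace.isSeparable_range (isometry_c0single n).continuous
  refine (h1.span (R := ℝ)).closure.mono fun f _ => ?_
  refine mem_closure_of_tendsto (c0_trunc_tendsto f) (Eventually.of_forall fun s => ?_)
  exact Submodule.sum_mem _ fun n _ => Submodule.subset_span (Set.mem_iUnion.2 ⟨n, f n, rfl⟩)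

lemma c0_wuc [NormedSpace ℝ E] (v : E) (s : Finset ℕ) (ε : ℕ → ℝ) (hε : ∀ n, |ε n| ≤ 1) :
    ‖∑ n ∈ s, ε n • c0single n v‖ ≤ ‖v‖ := by
  refine c0_norm_le (norm_nonneg _) fun k => ?_
  simp only [c0_sum_apply, ZeroAtInftyContinuousMap.smul_apply, c0single_apply, smul_ite, smul_zero]
  rw [Finset.sum_ite_eq]
  split_ifs
  · rw [norm_smul, Real.norm_eq_abs]
    nlinarith [hε k, norm_nonneg v]
  · simp

end Crest.Agent.R91
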