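import Crest.Agent.R91.Swindle
import Crest.Agent.R91.C0

/-!
Row 91: assembly.  A model `Z` for `E` (separable Banach space in which WUC sequences are null, with
a reading of `c₀(E)`) gives both statements.
-/

set_option autoImplicit false
open Filter Topology

namespace Crest.Agent.R91

/-- what parts 2 and 3 have to produce -/
def Model (E : Type) [NormedAddCommGroup E] [NormedSpace ℝ E] : Prop :=
  ∃ (Z : Type) (_ : NormedAddCommGroup Z) (_ : NormedSpace ℝ Z),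
    CompleteSpace Z ∧ TopologicalSpace.SeparableSpace Z ∧ WUCNull Z ∧
      Nonempty (Reading (ZeroAtInftyContinuousMap ℕ E) Z (1 / 1000))

section
variable {Z : Type*} [NormedAddCommGroup Z] [NormedSpace ℝ Z]

lemma separable_lp (p : ENNReal) [Fact (1 ≤ p)] (hp : p ≠ ⊤) [TopologicalSpace.SeparableSpace Z] :
    TopologicalSpace.SeparableSpace (lp (fun _ : ℕ => Z) p) := by
  classical
  rw [← TopologicalSpace.isSeparable_univ_iff]
  have h1 : TopologicalSpace.IsSeparable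
      (⋃ n, Set.range (lp.singleContinuousLinearMap ℝ (fun _ : ℕ => Z) p n)) :=
    TopologicalSpace.IsSeparable.iUnion fun n =>
      TopologicalSpace.isSeparable_range
        (lp.singleContinuousLinearMap ℝ (fun _ : ℕ => Z) p n).continuous
  refine (h1.span (R := ℝ)).closure.mono fun f _ => ?_
  refine mem_closure_of_tendsto (lp.hasSum_single hp f) (Eventually.of_forall fun s => ?_)
  exact Submodule.sum_mem _ fun n _ =>
    Submodule.subset_span (Set.mem_iUnion.2 ⟨n, f n, rfl⟩)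

omit [NormedSpace ℝ Z] in
/-- the gliding hump step in `ℓ₁` -/
lemma l1_hump (u v : L1 Z) (K : ℕ) :
    ‖u‖ + ‖v‖ - 2 * (‖u‖ - ∑ k ∈ Finset.range K, ‖u k‖) - 2 * ∑ k ∈ Finset.range K, ‖v k‖ ≤
      ‖u + v‖ := by
  have hu := (hasSum_nat_add_iff' K).2 (l1_hasSum u)
  have hv := (hasSum_nat_add_iff' K).2 (l1_hasSum v)
  have huv := (hasSum_nat_add_iff' K).2 (l1_hasSum (u + v))
  have h1 := hasSum_le (fun n => ?_) hv (huv.add hu)
  · have h2 : ∑ k ∈ Finset.range K, ‖u k‖ ≤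
        ∑ k ∈ Finset.range K, (‖(u + v) k‖ + ‖v k‖) := Finset.sum_le_sum fun k _ => by
      simpa using norm_sub_le (u k + v k) (v k)
    rw [Finset.sum_add_distrib] at h2
    linarith
  · simpa using norm_sub_le (u (n + K) + v (n + K)) (u (n + K))

lemma WUCNull.l1 (h : WUCNull Z) : WUCNull (L1 Z) := by
  classical
  intro y C hy
  have hco : ∀ k, Tendsto (fun n => y n k) atTop (𝓝 0) := fun k => by
    refine h _ C fun s ε hε => le_trans ?_ (hy s ε hε)
    have := lp.norm_apply_le_norm (p := 1) one_ne_zero (∑ n ∈ s, ε n • y n) k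
    rw [lp.coeFn_sum, Finset.sum_apply] at this
    simpa using this
  by_contra hne
  rw [Metric.tendsto_atTop] at hne
  push Not at hne
  obtain ⟨δ, hδ, hfr⟩ := hne
  have key : ∀ N : ℕ, ∃ s : Finset ℕ, N * (δ / 2) ≤ ‖∑ n ∈ s, y n‖ := fun N => by
    induction N with
    | zero => exact ⟨∅, by simp⟩
    | succ N ih =>
      obtain ⟨s, hs⟩ := ih
      set u := ∑ n ∈ s, y n
      obtain ⟨K, hK⟩ := ((l1_hasSum u).tendsto_sum_nat.eventually
        (lt_mem_nhds (show ‖u‖ - δ / 8 < ‖u‖ by linarith))).exists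
      have ht : Tendsto (fun n => ∑ k ∈ Finset.range K, ‖y n k‖) atTop (𝓝 0) := by
        have := tendsto_finsetSum (Finset.range K) fun k _ => (hco k).norm
        simpa using this
      obtain ⟨M, hM⟩ := eventually_atTop.1 (ht.eventually (gt_mem_nhds (show 0 < δ / 8 by linarith)))
      obtain ⟨n, hn, hn'⟩ := hfr (max M (s.sup id + 1))
      have hns : n ∉ s := fun hh => by
        have := Finset.le_sup (f := id) hh
        simp only [id] at this
        have := le_max_right M (s.sup id + 1)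
        omega
      refine ⟨insert n s, ?_⟩
      rw [Finset.sum_insert hns, add_comm (y n)]
      have h1 := l1_hump u (y n) K
      have h2 := hM n (le_of_max_le_left hn)
      rw [dist_zero_right] at hn'
      push_cast
      linarith
  obtain ⟨N, hN⟩ := exists_nat_gt (C / (δ / 2))
  obtain ⟨s, hs⟩ := key N
  have h1 := hy s (fun _ => 1) (by simp)
  simp only [one_smul] at h1
  rw [div_lt_iff₀ (by linarith)] at hN
  linarith

/-- no subspace is isomorphic to `c₀(E)` -/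
lemma WUCNull.isEmpty {E : Type*} [NormedAddCommGroup E] [NormedSpace ℝ E] (h : WUCNull Z)
    (v : E) (hv : v ≠ 0) (T : C0 E →L[ℝ] Z) (c : ℝ) (hT : ∀ x, ‖x‖ ≤ c * ‖T x‖) : False := by
  have h1 := h (fun n => T (c0single n v)) (‖T‖ * ‖v‖) fun s ε hε => by
    have : ∑ n ∈ s, ε n • T (c0single n v) = T (∑ n ∈ s, ε n • c0single n v) := by
      simp [map_sum]
    rw [this]
    exact (T.le_opNorm _).trans (by gcongr; exact c0_wuc v s ε hε)
  have h2 : Tendsto (fun n => c * ‖T (c0single n v)‖) atTop (𝓝 0) := by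
    simpa using h1.norm.const_mul c
  have h3 : ‖v‖ ≤ 0 := ge_of_tendsto' h2 fun n => le_trans (by
    simpa [c0single_apply] using c0_apply_le (c0single n v) n) (hT _)
  exact hv (norm_le_zero_iff.1 h3)

lemma WUCNull.isEmpty_sub {E : Type*} [NormedAddCommGroup E] [NormedSpace ℝ E] (h : WUCNull Z)
    (v : E) (hv : v ≠ 0) (S : Submodule ℝ Z) : IsEmpty (S ≃L[ℝ] C0 E) :=
  ⟨fun T => h.isEmpty v hv (S.subtypeL.comp (T.symm : C0 E →L[ℝ] S)) ‖(T : S →L[ℝ] C0 E)‖
    fun x => by simpa using (T : S →L[ℝ] C0 E).le_opNorm (T.symm x)⟩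

end

theorem s0120_of (h : Model (lp (fun _ : ℕ => ℝ) 2)) :
    ∃ (X : Type) (_ : NormedAddCommGroup X) (_ : NormedSpace ℝ X)
      (Y : Type) (_ : NormedAddCommGroup Y) (_ : NormedSpace ℝ Y),
      CompleteSpace X ∧ TopologicalSpace.SeparableSpace X ∧
      CompleteSpace Y ∧ TopologicalSpace.SeparableSpace Y ∧
      (∃ Ψ : X → Y, Function.Bijective Ψ ∧
        ∀ s t : X, (4 / 21 : ℝ) * ‖s - t‖ ≤ ‖Ψ s - Ψ t‖ ∧ ‖Ψ s - Ψ t‖ ≤ (76 / 25 : ℝ) * ‖s - t‖) ∧
      Nonempty (ZeroAtInftyContinuousMap ℕ (lp (fun _ : ℕ => ℝ) 2) →ₗᵢ[ℝ] X) ∧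
      (∀ S : Submodule ℝ Y, IsClosed (S : Set Y) →
        IsEmpty (S ≃L[ℝ] ZeroAtInftyContinuousMap ℕ (lp (fun _ : ℕ => ℝ) 2))) ∧
      IsEmpty (X ≃L[ℝ] Y) := by
  obtain ⟨Z, _, _, hc, hs, hw, ⟨R⟩⟩ := h
  have := separable_lp (Z := ℝ) 2 (by simp)
  have := separable_lp (Z := Z) 1 (by simp)
  have : TopologicalSpace.SeparableSpace (C0 (lp (fun _ : ℕ => ℝ) 2)) := separable_c0
  have hv : (lp.single 2 0 (1 : ℝ) : lp (fun _ : ℕ => ℝ) 2) ≠ 0 := by
    rw [← norm_ne_zero_iff, lp.norm_single (by simp)]; simp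
  have hest : ∀ s t : WithLp 1 (C0 (lp (fun _ : ℕ => ℝ) 2) × L1 Z),
      (4 / 21 : ℝ) * ‖s - t‖ ≤ ‖R.Psi s.fst s.snd - R.Psi t.fst t.snd‖ ∧
      ‖R.Psi s.fst s.snd - R.Psi t.fst t.snd‖ ≤ (76 / 25 : ℝ) * ‖s - t‖ := fun s t => by
    rw [WithLp.prod_norm_eq_of_L1, WithLp.sub_fst, WithLp.sub_snd]
    exact ⟨R.Psi_lower _ _ _ _, R.Psi_upper _ _ _ _⟩
  let ι : C0 (lp (fun _ : ℕ => ℝ) 2) →ₗᵢ[ℝ] WithLp 1 (C0 (lp (fun _ : ℕ => ℝ) 2) × L1 Z) :=
    { toFun := fun x => WithLp.toLp 1 (x, 0)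
      map_add' := fun x y => by rw [← WithLp.toLp_add]; simp
      map_smul' := fun c x => by rw [← WithLp.toLp_smul]; simp
      norm_map' := fun x => WithLp.norm_toLp_fst 1 _ _ x }
  refine ⟨WithLp 1 (C0 (lp (fun _ : ℕ => ℝ) 2) × L1 Z), inferInstance, inferInstance, L1 Z,
    inferInstance, inferInstance, inferInstance, inferInstance, inferInstance, inferInstance,
    ⟨fun s => R.Psi s.fst s.snd, ⟨fun s t hst => ?_, fun ζ => ?_⟩, hest⟩, ⟨ι⟩,
    fun S _ => hw.l1.isEmpty_sub _ hv S, ⟨fun T => ?_⟩⟩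
  · have := (hest s t).1
    simp only at hst
    rw [hst, sub_self, norm_zero] at this
    have h0 : ‖s - t‖ ≤ 0 := by linarith
    exact sub_eq_zero.1 (norm_le_zero_iff.1 h0)
  · obtain ⟨x, z, hxz⟩ := R.Psi_surj ζ
    exact ⟨WithLp.toLp 1 (x, z), hxz⟩
  · refine hw.l1.isEmpty _ hv (T.toContinuousLinearMap.comp ι.toContinuousLinearMap)
      ‖T.symm.toContinuousLinearMap‖ fun x => ?_
    have := T.symm.toContinuousLinearMap.le_opNorm (T (ι x))
    simpa using this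

theorem s0121_of (h : Model ℝ) :
    ∃ (Z : Type) (_ : NormedAddCommGroup Z) (_ : NormedSpace ℝ Z),
      CompleteSpace Z ∧ TopologicalSpace.SeparableSpace Z ∧
      (∀ S : Submodule ℝ Z, IsClosed (S : Set Z) →
        IsEmpty (S ≃L[ℝ] ZeroAtInftyContinuousMap ℕ ℝ)) ∧
      ∃ F : Z × ZeroAtInftyContinuousMap ℕ ℝ → Z, Function.Surjective F ∧
        ∃ c C : ℝ, 0 < c ∧
          ∀ u v : Z × ZeroAtInftyContinuousMap ℕ ℝ,
            c * ‖u - v‖ ≤ ‖F u - F v‖ ∧ ‖F u - F v‖ ≤ C * ‖u - v‖ := by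
  obtain ⟨Z, _, _, hc, hs, hw, ⟨R⟩⟩ := h
  have := separable_lp (Z := Z) 1 (by simp)
  refine ⟨L1 Z, inferInstance, inferInstance, inferInstance, inferInstance,
    fun S _ => hw.l1.isEmpty_sub (1 : ℝ) one_ne_zero S, fun u => R.Psi u.2 u.1, fun ζ => ?_,
    4 / 21, 7, by norm_num, fun u v => ?_⟩
  · obtain ⟨x, z, hxz⟩ := R.Psi_surj ζ
    exact ⟨(z, x), hxz⟩
  · have h1 := R.Psi_lower u.2 v.2 u.1 v.1
    have h2 := R.Psi_upper u.2 v.2 u.1 v.1
    have h3 : ‖u.1 - v.1‖ ≤ ‖u - v‖ := norm_fst_le (u - v)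
    have h4 : ‖u.2 - v.2‖ ≤ ‖u - v‖ := norm_snd_le (u - v)
    have h5 : ‖u - v‖ ≤ ‖u.2 - v.2‖ + ‖u.1 - v.1‖ := by
      rw [Prod.norm_def]
      exact max_le (by simp) (by simp)
    constructor <;> linarith [norm_nonneg (u - v)]

end Crest.Agent.R91
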