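import Mathlib

/-!
Row 91, part 1: the abstract swindle.  From a "reading" of `X` inside `Z` we build a bi-Lipschitz
bijection `X ⊕₁ ℓ₁(Z) → ℓ₁(Z)`.
-/

set_option autoImplicit false
open Filter Topology

namespace Crest.Agent.R91

/-- every weakly unconditionally Cauchy sequence is norm-null -/
def WUCNull (Z : Type*) [NormedAddCommGroup Z] [NormedSpace ℝ Z] : Prop :=
  ∀ (y : ℕ → Z) (C : ℝ),
    (∀ (s : Finset ℕ) (ε : ℕ → ℝ), (∀ n, |ε n| ≤ 1) → ‖∑ n ∈ s, ε n • y n‖ ≤ C) →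
    Tendsto y atTop (𝓝 0)

/-- the data of the swindle -/
structure Reading (X Z : Type*) [NormedAddCommGroup X] [NormedAddCommGroup Z] (e : ℝ) where
  J : Z → X → Z
  r : Z → X → X
  J0 : ∀ ζ, J ζ 0 = 0
  r0 : r 0 0 = 0
  dJ : ∀ ζ ζ' x x', ‖J ζ x - J ζ' x'‖ ≤ (1 + e) * ‖x - x'‖ + 2 * e * ‖ζ - ζ'‖
  dr : ∀ ζ ζ' x x', ‖r ζ x - r ζ' x'‖ ≤ (1 + e) * ‖ζ - ζ'‖ + e * ‖x - x'‖
  dR : ∀ ζ ζ' x x', ‖(r ζ x - x) - (r ζ' x' - x')‖ ≤
    ‖(ζ - J ζ x) - (ζ' - J ζ' x')‖ + e * max ‖x - x'‖ ‖ζ - ζ'‖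

variable {X Z : Type*} [NormedAddCommGroup X] [NormedAddCommGroup Z]

/-- a reading with error `e` is a reading with any larger error -/
def Reading.mono {e e' : ℝ} (R : Reading X Z e) (h : e ≤ e') : Reading X Z e' where
  J := R.J
  r := R.r
  J0 := R.J0
  r0 := R.r0
  dJ ζ ζ' x x' := by
    have := R.dJ ζ ζ' x x'
    nlinarith [norm_nonneg (x - x'), norm_nonneg (ζ - ζ')]
  dr ζ ζ' x x' := by
    have := R.dr ζ ζ' x x'
    nlinarith [norm_nonneg (x - x'), norm_nonneg (ζ - ζ')]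
  dR ζ ζ' x x' := by
    have := R.dR ζ ζ' x x'
    have h0 : 0 ≤ max ‖x - x'‖ ‖ζ - ζ'‖ := le_max_of_le_left (norm_nonneg _)
    nlinarith

abbrev L1 (Z : Type*) [NormedAddCommGroup Z] := lp (fun _ : ℕ => Z) 1

lemma l1_mem {f : ℕ → Z} (h : Summable fun n => ‖f n‖) : Memℓp f 1 :=
  memℓp_gen (by simpa using h)

lemma l1_hasSum (f : L1 Z) : HasSum (fun n => ‖f n‖) ‖f‖ := by
  simpa using lp.hasSum_norm (p := 1) (by simp) f

lemma l1_summable (f : L1 Z) : Summable fun n => ‖f n‖ := (l1_hasSum f).summable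

lemma l1_norm (f : L1 Z) : ‖f‖ = ∑' n, ‖f n‖ := (l1_hasSum f).tsum_eq.symm

lemma l1_sum_le (f : L1 Z) (s : Finset ℕ) : ∑ n ∈ s, ‖f n‖ ≤ ‖f‖ :=
  sum_le_hasSum s (fun _ _ => norm_nonneg _) (l1_hasSum f)

namespace Reading

variable (R : Reading X Z (1 / 1000))

lemma contr (x : X) (z : Z) : ContractingWith (1 / 2) fun ζ => z + R.J ζ x := by
  refine ⟨by norm_num, LipschitzWith.of_dist_le_mul fun a b => ?_⟩
  have := R.dJ a b x x
  simp only [dist_eq_norm, add_sub_add_left_eq_sub]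
  simp only [sub_self, norm_zero] at this
  push_cast
  nlinarith [norm_nonneg (a - b)]

variable [CompleteSpace Z]

/-- the solution of `ζ - J ζ x = z` -/
noncomputable def zeta (x : X) (z : Z) : Z := (R.contr x z).fixedPoint

lemma zeta_spec (x : X) (z : Z) : R.zeta x z - R.J (R.zeta x z) x = z := by
  have := (R.contr x z).fixedPoint_isFixedPt
  simp only [Function.IsFixedPt] at this
  rw [sub_eq_iff_eq_add]; exact this.symm

lemma zeta_unique {x : X} {z ζ : Z} (h : ζ - R.J ζ x = z) : R.zeta x z = ζ := by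
  refine ((R.contr x z).fixedPoint_unique ?_).symm
  simp only [Function.IsFixedPt]
  rw [← h]; abel

/-- the chain of carried vectors -/
noncomputable def xs (x : X) (z : ℕ → Z) : ℕ → X
  | 0 => x
  | n + 1 => (xs x z n - R.r (R.zeta (xs x z n) (z n)) (xs x z n)) +
      (xs x z n - R.r (R.zeta (xs x z n) (z n)) (xs x z n))

/-- the output sequence -/
noncomputable def zs (x : X) (z : ℕ → Z) (n : ℕ) : Z := R.zeta (R.xs x z n) (z n)

lemma zs_spec (x : X) (z : ℕ → Z) (n : ℕ) : R.zs x z n - R.J (R.zs x z n) (R.xs x z n) = z n :=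
  R.zeta_spec _ _

lemma xs_succ (x : X) (z : ℕ → Z) (n : ℕ) : R.xs x z (n + 1) =
    (R.xs x z n - R.r (R.zs x z n) (R.xs x z n)) + (R.xs x z n - R.r (R.zs x z n) (R.xs x z n)) :=
  rfl

lemma xs_zero_zero (n : ℕ) : R.xs 0 0 n = 0 := by
  induction n with
  | zero => rfl
  | succ n ih =>
    have : R.zeta 0 0 = 0 := R.zeta_unique (by simp [R.J0])
    simp [xs, ih, this, R.r0]

lemma zs_zero_zero (n : ℕ) : R.zs 0 0 n = 0 := by
  simp only [zs, xs_zero_zero]
  exact R.zeta_unique (by simp [R.J0])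

section est
variable [NormedSpace ℝ X] (x x' : X) (z z' : ℕ → Z)

omit [NormedSpace ℝ X] in
lemma est1 (n : ℕ) : ‖R.zs x z n - R.zs x' z' n‖ ≤ ‖z n - z' n‖ +
    (1 + 1 / 1000) * ‖R.xs x z n - R.xs x' z' n‖ + 2 * (1 / 1000) * ‖R.zs x z n - R.zs x' z' n‖ := by
  have h := R.dJ (R.zs x z n) (R.zs x' z' n) (R.xs x z n) (R.xs x' z' n)
  have e : R.zs x z n - R.zs x' z' n = (z n - z' n) +
      (R.J (R.zs x z n) (R.xs x z n) - R.J (R.zs x' z' n) (R.xs x' z' n)) := by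
    rw [← R.zs_spec x z n, ← R.zs_spec x' z' n]; abel
  have h2 := norm_add_le (z n - z' n)
    (R.J (R.zs x z n) (R.xs x z n) - R.J (R.zs x' z' n) (R.xs x' z' n))
  rw [← e] at h2
  linarith

omit [NormedSpace ℝ X] in
lemma est4 (n : ℕ) : ‖z n - z' n‖ ≤ (1 + 2 / 1000) * ‖R.zs x z n - R.zs x' z' n‖ +
    (1 + 1 / 1000) * ‖R.xs x z n - R.xs x' z' n‖ := by
  have h := R.dJ (R.zs x z n) (R.zs x' z' n) (R.xs x z n) (R.xs x' z' n)
  have e : z n - z' n = (R.zs x z n - R.zs x' z' n) -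
      (R.J (R.zs x z n) (R.xs x z n) - R.J (R.zs x' z' n) (R.xs x' z' n)) := by
    conv_lhs => rw [← R.zs_spec x z n, ← R.zs_spec x' z' n]
    abel
  have h2 := norm_sub_le (R.zs x z n - R.zs x' z' n)
    (R.J (R.zs x z n) (R.xs x z n) - R.J (R.zs x' z' n) (R.xs x' z' n))
  rw [← e] at h2
  linarith

lemma norm_add_self (v : X) : ‖v + v‖ = 2 * ‖v‖ := by
  rw [← two_smul ℝ v, norm_smul]; simp

lemma est2 (n : ℕ) : ‖R.xs x z (n + 1) - R.xs x' z' (n + 1)‖ ≤ 2 * ‖z n - z' n‖ +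
    2 / 1000 * (‖R.xs x z n - R.xs x' z' n‖ + ‖R.zs x z n - R.zs x' z' n‖) := by
  have h := R.dR (R.zs x z n) (R.zs x' z' n) (R.xs x z n) (R.xs x' z' n)
  rw [R.zs_spec, R.zs_spec] at h
  set v := (R.r (R.zs x z n) (R.xs x z n) - R.xs x z n) -
    (R.r (R.zs x' z' n) (R.xs x' z' n) - R.xs x' z' n) with hv
  have e : R.xs x z (n + 1) - R.xs x' z' (n + 1) = -(v + v) := by
    rw [xs_succ, xs_succ, hv]; abel
  rw [e, norm_neg, norm_add_self]
  have h3 : max ‖R.xs x z n - R.xs x' z' n‖ ‖R.zs x z n - R.zs x' z' n‖ ≤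
      ‖R.xs x z n - R.xs x' z' n‖ + ‖R.zs x z n - R.zs x' z' n‖ :=
    max_le (by linarith [norm_nonneg (R.zs x z n - R.zs x' z' n)])
      (by linarith [norm_nonneg (R.xs x z n - R.xs x' z' n)])
  linarith

lemma est3 (n : ℕ) : ‖R.xs x z n - R.xs x' z' n‖ ≤ ‖R.xs x z (n + 1) - R.xs x' z' (n + 1)‖ / 2 +
    (1 + 1 / 1000) * ‖R.zs x z n - R.zs x' z' n‖ + 1 / 1000 * ‖R.xs x z n - R.xs x' z' n‖ := by
  have h := R.dr (R.zs x z n) (R.zs x' z' n) (R.xs x z n) (R.xs x' z' n)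
  set v := (R.xs x z n - R.r (R.zs x z n) (R.xs x z n)) -
    (R.xs x' z' n - R.r (R.zs x' z' n) (R.xs x' z' n)) with hv
  have e : R.xs x z (n + 1) - R.xs x' z' (n + 1) = v + v := by
    rw [xs_succ, xs_succ, hv]; abel
  have e2 : R.xs x z n - R.xs x' z' n = v +
      (R.r (R.zs x z n) (R.xs x z n) - R.r (R.zs x' z' n) (R.xs x' z' n)) := by
    rw [hv]; abel
  have h2 := norm_add_le v
    (R.r (R.zs x z n) (R.xs x z n) - R.r (R.zs x' z' n) (R.xs x' z' n))
  rw [← e2] at h2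
  rw [e, norm_add_self]
  linarith

lemma fin_bound (N : ℕ) :
    ∑ n ∈ Finset.range N, ‖R.xs x z n - R.xs x' z' n‖ ≤
        3 * (‖x - x'‖ + ∑ n ∈ Finset.range N, ‖z n - z' n‖) ∧
      ∑ n ∈ Finset.range N, ‖R.zs x z n - R.zs x' z' n‖ ≤
        76 / 25 * (‖x - x'‖ + ∑ n ∈ Finset.range N, ‖z n - z' n‖) := by
  have h1 := Finset.sum_le_sum fun n (_ : n ∈ Finset.range N) => R.est1 x x' z z' n
  have h2 := Finset.sum_le_sum fun n (_ : n ∈ Finset.range N) => R.est2 x x' z z' n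
  simp only [Finset.sum_add_distrib, ← Finset.mul_sum] at h1 h2
  have h3 := Finset.sum_range_succ' (fun n => ‖R.xs x z n - R.xs x' z' n‖) N
  have h4 := Finset.sum_range_succ (fun n => ‖R.xs x z n - R.xs x' z' n‖) N
  have h5 : ‖R.xs x z 0 - R.xs x' z' 0‖ = ‖x - x'‖ := rfl
  have h6 := norm_nonneg (R.xs x z N - R.xs x' z' N)
  have h7 := norm_nonneg (x - x')
  have h8 : 0 ≤ ∑ n ∈ Finset.range N, ‖z n - z' n‖ := Finset.sum_nonneg fun _ _ => norm_nonneg _
  constructor <;> linarith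

end est

variable [NormedSpace ℝ X]

lemma xs_summable (x x' : X) (z z' : L1 Z) : Summable fun n => ‖R.xs x z n - R.xs x' z' n‖ := by
  refine summable_of_sum_range_le (c := 3 * (‖x - x'‖ + ‖z - z'‖)) (fun _ => norm_nonneg _)
    fun N => (R.fin_bound x x' z z' N).1.trans ?_
  have := l1_sum_le (z - z') (Finset.range N)
  simp only [lp.coeFn_sub, Pi.sub_apply] at this
  linarith

lemma zs_summable (x x' : X) (z z' : ℕ → Z) (h : Summable fun n => ‖z n - z' n‖) :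
    Summable fun n => ‖R.zs x z n - R.zs x' z' n‖ := by
  refine summable_of_sum_range_le (c := 76 / 25 * (‖x - x'‖ + ∑' n, ‖z n - z' n‖))
    (fun _ => norm_nonneg _) fun N => (R.fin_bound x x' z z' N).2.trans ?_
  have := h.sum_le_tsum (Finset.range N) (fun _ _ => norm_nonneg _)
  linarith

/-- the bi-Lipschitz map -/
noncomputable def Psi (x : X) (z : L1 Z) : L1 Z :=
  ⟨R.zs x z, l1_mem (by
    simpa [zs_zero_zero] using R.zs_summable x 0 z 0 (by simpa using l1_summable z))⟩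

lemma Psi_apply (x : X) (z : L1 Z) (n : ℕ) : R.Psi x z n = R.zs x z n := rfl

lemma Psi_upper (x x' : X) (z z' : L1 Z) :
    ‖R.Psi x z - R.Psi x' z'‖ ≤ 76 / 25 * (‖x - x'‖ + ‖z - z'‖) := by
  rw [l1_norm]
  refine Real.tsum_le_of_sum_range_le (fun _ => norm_nonneg _) fun N => ?_
  have h := (R.fin_bound x x' z z' N).2
  have := l1_sum_le (z - z') (Finset.range N)
  simp only [lp.coeFn_sub, Pi.sub_apply, Psi_apply] at this ⊢
  linarith

lemma Psi_lower (x x' : X) (z z' : L1 Z) :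
    4 / 21 * (‖x - x'‖ + ‖z - z'‖) ≤ ‖R.Psi x z - R.Psi x' z'‖ := by
  have hb := (R.xs_summable x x' z z').hasSum
  set B := ∑' n, ‖R.xs x z n - R.xs x' z' n‖
  have hc := l1_hasSum (R.Psi x z - R.Psi x' z')
  have ha := l1_hasSum (z - z')
  simp only [lp.coeFn_sub, Pi.sub_apply, Psi_apply] at hc ha
  have hb1 := (hasSum_nat_add_iff' 1).2 hb
  simp only [Finset.range_one, Finset.sum_singleton] at hb1
  have h5 : ‖R.xs x z 0 - R.xs x' z' 0‖ = ‖x - x'‖ := rfl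
  rw [h5] at hb1
  have h3 := hasSum_le (R.est3 x x' z z') hb
    (((hb1.div_const 2).add (hc.mul_left _)).add (hb.mul_left _))
  have h4 := hasSum_le (R.est4 x x' z z') ha ((hc.mul_left _).add (hb.mul_left _))
  have h7 := norm_nonneg (x - x')
  have h8 := norm_nonneg (R.Psi x z - R.Psi x' z')
  linarith

omit [CompleteSpace Z] [NormedSpace ℝ X] in
lemma norm_r_le (ζ : Z) (x : X) : ‖R.r ζ x‖ ≤ 2 * ‖ζ‖ + ‖x‖ := by
  have := R.dr ζ 0 x 0
  simp only [R.r0, sub_zero] at this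
  linarith [norm_nonneg ζ, norm_nonneg x]

omit [CompleteSpace Z] [NormedSpace ℝ X] in
lemma norm_J_le (ζ : Z) (x : X) : ‖R.J ζ x‖ ≤ 2 * ‖x‖ := by
  have := R.dJ ζ ζ x 0
  simp only [R.J0, sub_zero, sub_self, norm_zero] at this
  linarith [norm_nonneg x]

omit [CompleteSpace Z] in
/-- the backward recursion as a self-map of `ℓ₁(X)` -/
noncomputable def back (ζ : L1 Z) (x : L1 X) : L1 X :=
  ⟨fun n => (1 / 2 : ℝ) • x (n + 1) + R.r (ζ n) (x n), l1_mem (by
    have h1 := (summable_nat_add_iff 1).2 (l1_summable x)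
    refine Summable.of_nonneg_of_le (fun _ => norm_nonneg _) (fun n => ?_)
      ((h1.add ((l1_summable ζ).mul_left 2)).add (l1_summable x))
    have := R.norm_r_le (ζ n) (x n)
    have h2 := norm_add_le ((1 / 2 : ℝ) • x (n + 1)) (R.r (ζ n) (x n))
    rw [norm_smul] at h2
    norm_num at h2 ⊢
    linarith [norm_nonneg (x (n + 1))])⟩

omit [CompleteSpace Z] in
lemma back_apply (ζ : L1 Z) (x : L1 X) (n : ℕ) :
    R.back ζ x n = (1 / 2 : ℝ) • x (n + 1) + R.r (ζ n) (x n) := rfl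

omit [CompleteSpace Z] in
lemma back_contr (ζ : L1 Z) : ContractingWith (3 / 4) (R.back ζ) := by
  refine ⟨by norm_num, LipschitzWith.of_dist_le_mul fun a b => ?_⟩
  simp only [dist_eq_norm]
  have hb := l1_hasSum (a - b)
  have hb1 := (hasSum_nat_add_iff' 1).2 hb
  simp only [Finset.range_one, Finset.sum_singleton] at hb1
  have h := hasSum_le (fun n => ?_) (l1_hasSum (R.back ζ a - R.back ζ b))
    ((hb1.div_const 2).add (hb.div_const 4))
  · push_cast
    linarith [norm_nonneg ((a - b) 0)]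
  · simp only [lp.coeFn_sub, Pi.sub_apply, back_apply]
    have h1 := R.dr (ζ n) (ζ n) (a n) (b n)
    have e : (1 / 2 : ℝ) • a (n + 1) + R.r (ζ n) (a n) - ((1 / 2 : ℝ) • b (n + 1) + R.r (ζ n) (b n))
        = (1 / 2 : ℝ) • (a (n + 1) - b (n + 1)) + (R.r (ζ n) (a n) - R.r (ζ n) (b n)) := by
      rw [smul_sub]; abel
    have h2 := norm_add_le ((1 / 2 : ℝ) • (a (n + 1) - b (n + 1)))
      (R.r (ζ n) (a n) - R.r (ζ n) (b n))
    rw [e]
    rw [norm_smul] at h2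
    simp only [sub_self, norm_zero] at h1
    norm_num at h1 h2 ⊢
    linarith [norm_nonneg (a n - b n)]

lemma Psi_surj [CompleteSpace X] (ζ : L1 Z) : ∃ x z, R.Psi x z = ζ := by
  set x := (R.back_contr ζ).fixedPoint
  have hx : R.back ζ x = x := (R.back_contr ζ).fixedPoint_isFixedPt
  have hx' : ∀ n, x (n + 1) = (x n - R.r (ζ n) (x n)) + (x n - R.r (ζ n) (x n)) := fun n => by
    have h := congrArg (fun f : L1 X => f n) hx
    simp only [back_apply] at h
    have : x n - R.r (ζ n) (x n) = (1 / 2 : ℝ) • x (n + 1) := by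
      rw [sub_eq_iff_eq_add]; exact h.symm
    rw [this, ← add_smul]; norm_num
  let z : L1 Z := ⟨fun n => ζ n - R.J (ζ n) (x n), l1_mem (by
    refine Summable.of_nonneg_of_le (fun _ => norm_nonneg _) (fun n => ?_)
      ((l1_summable ζ).add ((l1_summable x).mul_left 2))
    exact (norm_sub_le _ _).trans (by linarith [R.norm_J_le (ζ n) (x n)]))⟩
  have hz : ∀ n, R.zeta (x n) (z n) = ζ n := fun n => R.zeta_unique rfl
  have hxs : ∀ n, R.xs (x 0) z n = x n := fun n => by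
    induction n with
    | zero => rfl
    | succ n ih => rw [xs, ih, hz, hx']
  refine ⟨x 0, z, lp.ext (funext fun n => ?_)⟩
  rw [Psi_apply, zs, hxs, hz]

end Reading

end Crest.Agent.R91
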